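import Vale.Agent.P151.Bdl.B1

open MeasureTheory ProbabilityTheory

namespace Vale.Agent.Results.P151.LatticeCritical

open Vale.Agent.P151

/-- The nearest neighbour graph on `ℤ^d`: `x` and `y` are adjacent when their `ℓ¹` distance
is `1`. -/
def lattice (d : ℕ) : SimpleGraph (Fin d → ℤ) where
  Adj x y := ∑ i, |x i - y i| = 1
  symm := ⟨by
    intro x y h
    have : ∀ i, |y i - x i| = |x i - y i| := fun i => abs_sub_comm _ _
    simpa [this] using h⟩
  loopless := ⟨by
    intro x h
    simp at h⟩

/-- **No percolation at the critical point of `ℤ^d`, for every dimension `d ≥ 2`.**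
For the nearest neighbour graph on `ℤ^d` the critical probability is `< 1`, and for Bernoulli bond
percolation at `p = p_c` there is almost surely no infinite open cluster. -/
theorem result (d : ℕ) (hd : 2 ≤ d) :
    pc (lattice d) < 1 ∧
      ∀ p : unitInterval, (p : ℝ) = pc (lattice d) →
        setBernoulli (lattice d).edgeSet p (hasInfiniteCluster (Fin d → ℤ)) = 0 := by
  obtain ⟨m, rfl⟩ : ∃ m, d = m + 2 := ⟨d - 2, by omega⟩
  exact ZdT.no_perc (lattice (m + 2)) fun _ _ => Iff.rfl

end Vale.Agent.Results.P151.LatticeCritical
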