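import Vale.Agent.P151.NA.Ext

open MeasureTheory ProbabilityTheory

namespace Vale.Agent.Results.P151.NoPercolation

open Vale.Agent.P151

/-- The nearest neighbour graph on `ℤ^d`: `x` and `y` are adjacent when their `ℓ¹` distance
is `1`. -/
def lattice (d : ℕ) : SimpleGraph (Fin d → ℤ) where
  Adj x y := ∑ i, |x i - y i| = 1
  symm := ⟨by
    intro x y h
    have : ∀ i, |y i - x i| = |x i - y i| := fun i => abs_sub_comm _ _
    simpa [this] using h⟩
  loopless := ⟨by
    intro x h
    simp at h⟩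

/-- Some group `Γ` of automorphisms of `G` with finitely many vertex orbits acts by translations
through a map `π : V → ℝ²`, and two of these translations are linearly independent. -/
def HasPlanarProjection {V : Type} (G : SimpleGraph V) : Prop :=
  ∃ (Γ : Subgroup (G ≃g G)) (π : V → ℝ × ℝ),
    (∃ S : Finset V, ∀ x : V, ∃ y ∈ S, ∃ φ ∈ Γ, φ y = x) ∧
    (∀ φ ∈ Γ, ∃ w : ℝ × ℝ, ∀ v : V, π (φ v) = π v + w) ∧
    ∃ φ ∈ Γ, ∃ ψ ∈ Γ, ∃ v : V, LinearIndependent ℝ ![π (φ v) - π v, π (ψ v) - π v]

/-- Some group `Γ` of automorphisms of `G` with finitely many vertex orbits has a homomorphism `f`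
onto a finitely generated virtually nilpotent group such that vertex stabilisers have finite images
and the kernel of `f` has finite orbits. -/
def HasNilpotentSymmetry {V : Type} (G : SimpleGraph V) : Prop :=
  ∃ (Γ : Subgroup (G ≃g G)) (H : Type) (_ : Group H) (f : Γ →* H),
    (∃ S : Finset V, ∀ x : V, ∃ y ∈ S, ∃ φ ∈ Γ, φ y = x) ∧
    Group.FG H ∧ (∃ K : Subgroup H, K.FiniteIndex ∧ Group.IsNilpotent K) ∧
    Function.Surjective f ∧
    (∀ v : V, (f '' {φ : Γ | (φ : G ≃g G) v = v}).Finite) ∧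
    ∀ v : V, {x : V | ∃ φ : Γ, f φ = 1 ∧ (φ : G ≃g G) v = x}.Finite

/-- The balls around some vertex grow at least as fast as `exp (c √n)`. -/
def HasStretchedGrowth {V : Type} (G : SimpleGraph V) : Prop :=
  ∃ (o : V) (c : ℝ), 0 < c ∧ ∀ n : ℕ, Real.exp (c * √(n : ℝ)) ≤ ({y | G.dist o y ≤ n}.ncard : ℝ)

theorem det_ne_zero {a b : ℝ × ℝ} (h : LinearIndependent ℝ ![a, b]) :
    a.1 * b.2 - a.2 * b.1 ≠ 0 := by
  intro h0
  rw [LinearIndependent.pair_iff] at h
  have h1 := h b.2 (-a.2) (Prod.ext (by simp; linarith) (by simp; ring))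
  have h2 := h b.1 (-a.1) (Prod.ext (by simp; ring) (by simp; linarith))
  have hb : b = 0 := Prod.ext h2.1 h1.1
  have ha : a = 0 := Prod.ext (neg_eq_zero.1 h2.2) (neg_eq_zero.1 h1.2)
  have h3 := h 1 1 (by rw [ha, hb]; simp)
  exact one_ne_zero h3.1

/-- **No percolation at `p_c`.** For Bernoulli bond percolation at `p = p_c`, there is almost
surely no infinite open cluster
1. on the lattice `ℤ^d`, for every `d ≥ 2` (and `p_c < 1` there);
2. on every connected, locally finite graph `G` with `p_c(G) < 1` which has a planar projection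
   compatible with a quasi-transitive group of automorphisms, or a quasi-transitive group of
   automorphisms that is virtually nilpotent up to finite pieces, or is quasi-transitive and of
   growth at least `exp (c √n)`. -/
theorem result :
    (∀ d : ℕ, 2 ≤ d → pc (lattice d) < 1 ∧ ∀ p : unitInterval, (p : ℝ) = pc (lattice d) →
      setBernoulli (lattice d).edgeSet p (hasInfiniteCluster (Fin d → ℤ)) = 0) ∧
    ∀ (V : Type) (G : SimpleGraph V) [G.LocallyFinite], G.Connected → pc G < 1 →
      (HasPlanarProjection G ∨ HasNilpotentSymmetry G ∨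
        (IsQuasiTransitive G ∧ HasStretchedGrowth G)) →
        ∀ p : unitInterval, (p : ℝ) = pc G →
          setBernoulli G.edgeSet p (hasInfiniteCluster V) = 0 := by
  classical
  refine ⟨fun d hd => ?_, ?_⟩
  · obtain ⟨m, rfl⟩ : ∃ m, d = m + 2 := ⟨d - 2, by omega⟩
    exact ZdT.no_perc (lattice (m + 2)) fun _ _ => Iff.rfl
  intro V G _ hconn hpc h p hp
  rcases h with ⟨Γ, π, ⟨S, hS⟩, hπ, φ, hφ, ψ, hψ, v, hv⟩ |
    ⟨Γ, H, _, f, ⟨S, hS⟩, hfg, hnil, hf, hst, hker⟩ | ⟨hqt, hgr⟩
  · exact Pl.no_perc_at_pc hconn Γ S hS π hπ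
      ⟨φ, hφ, ψ, hψ, v, det_ne_zero hv⟩ p hp hpc
  · exact Pl.no_perc_nilpotent hconn Γ S hS f hf hnil hst hker hpc p hp
  · by_cases ham : IsAmenable G
    · exact main G hconn hqt ham hpc hgr p hp
    · exact NA.no_perc_of_nonamenable G hconn hqt ham hpc p hp

end Vale.Agent.Results.P151.NoPercolation
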